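import Vale.Agent.P073.PA691.Spec
import Vale.Agent.P073.PT.MosConn

/-!
# P073, block PA: the surface `F` of a handle structure is connected and not compact
-/

open Set Metric Topology Filter

namespace P073.PA249

open P073 PR720
open Vale.Agent.P073.St (V IsHomeo IsInv)
open P073.PA691

section remove

variable {E : Type*} [TopologicalSpace E] {ι : Type*} {X : Set E} {C S : ι → Set E}

/-- removing disjoint relatively open sets with connected boundaries does not disconnect -/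
theorem preconn_remove (hX : IsPreconnected X)
    (hlf : ∀ z ∈ X, ∃ U ∈ 𝓝 z, {i | (C i ∩ U).Nonempty}.Finite) (hcl : ∀ i, IsClosed (C i))
    (hCX : ∀ i, C i ⊆ X) (hSC : ∀ i, S i ⊆ C i) (hS : ∀ i, IsPreconnected (S i))
    (hne : ∀ i, (S i).Nonempty)
    (hopen : ∀ i, ∀ x ∈ C i, x ∉ S i → ∃ W ∈ 𝓝 x, W ∩ X ⊆ C i)
    (hdis : ∀ i j, i ≠ j → C i ∩ C j ⊆ S i) : IsPreconnected (X \ ⋃ i, C i \ S i) := by
  classical
  set Y := X \ ⋃ i, C i \ S i with hYdef
  rw [isPreconnected_iff_subset_of_disjoint]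
  intro u v hu hv huv hdisj
  have hno : ∀ x ∈ Y, x ∈ u → x ∈ v → False := fun x hx h1 h2 => by
    have : x ∈ Y ∩ (u ∩ v) := ⟨hx, h1, h2⟩
    rw [hdisj] at this; exact this
  have hSY : ∀ i, S i ⊆ Y := by
    intro i x hx
    refine ⟨hCX i (hSC i hx), ?_⟩
    rw [mem_iUnion]
    rintro ⟨j, hj, hj'⟩
    by_cases h : j = i
    · exact hj' (h ▸ hx)
    · exact hj' (hdis j i h ⟨hj, hSC i hx⟩)
  have hYS : ∀ x ∈ Y, ∀ i, x ∈ C i → x ∈ S i := by
    intro x hx i hi
    by_contra h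
    exact hx.2 (mem_iUnion.2 ⟨i, hi, h⟩)
  have hdich : ∀ i, S i ⊆ u ∨ S i ⊆ v := fun i =>
    isPreconnected_iff_subset_of_disjoint.1 (hS i) u v hu hv ((hSY i).trans huv)
      (by
        rw [eq_empty_iff_forall_notMem]
        rintro x ⟨h1, h2, h3⟩
        exact hno x (hSY i h1) h2 h3)
  let P : Set E → E → Prop := fun w x => (x ∈ Y ∧ x ∈ w) ∨ ∃ i, S i ⊆ w ∧ x ∈ C i
  have hPw : ∀ w x, x ∈ Y → P w x → x ∈ w := by
    rintro w x hx (h | ⟨i, h1, h2⟩)
    · exact h.2
    · exact h1 (hYS x hx i h2)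
  -- the two sets are relatively open
  have key : ∀ w w', IsOpen w → (∀ i, S i ⊆ w ∨ S i ⊆ w') →
      (∀ x ∈ Y, x ∈ w → x ∈ w' → False) → ∀ x ∈ X, P w x → ∀ᶠ y in 𝓝 x, y ∈ X → P w y := by
    intro w w' hw hd hn x hxX hx
    have h1 : x ∈ Y → x ∈ w → ∀ᶠ y in 𝓝 x, y ∈ X → P w y := by
      intro hxY hxw
      obtain ⟨U, hU, hfin⟩ := hlf x hxX
      have h2 : ∀ᶠ y in 𝓝 x, ∀ i ∈ {i | (C i ∩ U).Nonempty}, x ∉ C i → y ∉ C i := by
        rw [eventually_all_finite hfin]
        intro i _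
        by_cases h : x ∈ C i
        · exact Eventually.of_forall fun y h' => absurd h h'
        · filter_upwards [(hcl i).isOpen_compl.mem_nhds h] with y hy _ using hy
      filter_upwards [h2, hU, hw.mem_nhds hxw] with y hy hyU hyw hyX
      by_cases hyY : y ∈ Y
      · exact Or.inl ⟨hyY, hyw⟩
      · have h3 : y ∈ ⋃ i, C i \ S i := by
          by_contra h; exact hyY ⟨hyX, h⟩
        obtain ⟨i, hi, -⟩ := mem_iUnion.1 h3
        have hxi : x ∈ C i := by
          by_contra h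
          exact hy i ⟨y, hi, hyU⟩ h hi
        refine Or.inr ⟨i, ?_, hi⟩
        rcases hd i with h | h
        · exact h
        · exact absurd (hn x hxY hxw (h (hYS x hxY i hxi))) id
    rcases hx with ⟨hxY, hxw⟩ | ⟨i, hi, hxi⟩
    · exact h1 hxY hxw
    · by_cases hxS : x ∈ S i
      · exact h1 (hSY i hxS) (hi hxS)
      · obtain ⟨W, hW, h2⟩ := hopen i x hxi hxS
        filter_upwards [hW] with y hy hyX using Or.inr ⟨i, hi, h2 ⟨hy, hyX⟩⟩
  have hcov : ∀ x ∈ X, P u x ∨ P v x := by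
    intro x hx
    by_cases hxY : x ∈ Y
    · rcases huv hxY with h | h
      · exact Or.inl (Or.inl ⟨hxY, h⟩)
      · exact Or.inr (Or.inl ⟨hxY, h⟩)
    · have h3 : x ∈ ⋃ i, C i \ S i := by
        by_contra h; exact hxY ⟨hx, h⟩
      obtain ⟨i, hi, -⟩ := mem_iUnion.1 h3
      rcases hdich i with h | h
      · exact Or.inl (Or.inr ⟨i, h, hi⟩)
      · exact Or.inr (Or.inr ⟨i, h, hi⟩)
  have hPP : ∀ x, P u x → P v x → False := by
    rintro x (⟨h1, h2⟩ | ⟨i, hi, hxi⟩) hv'
    · exact hno x h1 h2 (hPw v x h1 hv')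
    · rcases hv' with ⟨h1, h2⟩ | ⟨j, hj, hxj⟩
      · exact hno x h1 (hi (hYS x h1 i hxi)) h2
      · by_cases hij : i = j
        · subst hij
          obtain ⟨z, hz⟩ := hne i
          exact hno z (hSY i hz) (hi hz) (hj hz)
        · have h1 : x ∈ S i := hdis i j hij ⟨hxi, hxj⟩
          have h2 : x ∈ S j := hdis j i (Ne.symm hij) ⟨hxj, hxi⟩
          exact hno x (hSY i h1) (hi h1) (hj h2)
  have hO := isPreconnected_iff_subset_of_disjoint.1 hX
    {x | ∀ᶠ y in 𝓝 x, y ∈ X → P u y} {x | ∀ᶠ y in 𝓝 x, y ∈ X → P v y}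
    isOpen_setOfPred_eventually_nhds isOpen_setOfPred_eventually_nhds
    (by
      intro x hx
      rcases hcov x hx with h | h
      · exact Or.inl (key u v hu hdich hno x hx h)
      · exact Or.inr (key v u hv (fun i => (hdich i).symm) (fun y h1 h2 h3 => hno y h1 h3 h2)
          x hx h))
    (by
      rw [eq_empty_iff_forall_notMem]
      rintro x ⟨h1, h2, h3⟩
      exact hPP x (h2.self_of_nhds h1) (h3.self_of_nhds h1))
  rcases hO with h | h
  · exact Or.inl fun x hx => hPw u x hx ((h hx.1).self_of_nhds hx.1)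
  · exact Or.inr fun x hx => hPw v x hx ((h hx.1).self_of_nhds hx.1)

/-- a connected set covered by disjoint relatively open sets lies in one of them -/
theorem subset_of_cover {T : Set E} (hT : IsPreconnected T) (hTX : T ⊆ X) {U : ι → Set E}
    (hopen : ∀ i, ∀ x ∈ U i, ∃ W ∈ 𝓝 x, W ∩ X ⊆ U i) (hdis : ∀ i j, i ≠ j → Disjoint (U i) (U j))
    (hcov : T ⊆ ⋃ i, U i) (hne : T.Nonempty) : ∃ i, T ⊆ U i := by
  obtain ⟨z, hz⟩ := hne
  obtain ⟨i, hi⟩ := mem_iUnion.1 (hcov hz)
  refine ⟨i, ?_⟩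
  have key : ∀ j, ∀ x ∈ U j, ∀ᶠ y in 𝓝 x, y ∈ X → y ∈ U j := by
    intro j x hx
    obtain ⟨W, hW, h⟩ := hopen j x hx
    filter_upwards [hW] with y hy hyX using h ⟨hy, hyX⟩
  have hO := isPreconnected_iff_subset_of_disjoint.1 hT
    {x | ∀ᶠ y in 𝓝 x, y ∈ X → y ∈ U i} {x | ∀ᶠ y in 𝓝 x, y ∈ X → y ∉ U i}
    isOpen_setOfPred_eventually_nhds isOpen_setOfPred_eventually_nhds
    (by
      intro x hx
      obtain ⟨j, hj⟩ := mem_iUnion.1 (hcov hx)
      by_cases h : j = i
      · exact Or.inl (key i x (h ▸ hj))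
      · refine Or.inr ?_
        filter_upwards [key j x hj] with y hy hyX hyi
        exact Set.disjoint_left.1 (hdis j i h) (hy hyX) hyi)
    (by
      rw [eq_empty_iff_forall_notMem]
      rintro x ⟨h1, h2, h3⟩
      exact h3.self_of_nhds (hTX h1) (h2.self_of_nhds (hTX h1)))
  rcases hO with h | h
  · exact fun x hx => (h hx).self_of_nhds (hTX hx)
  · exact absurd hi ((h hz).self_of_nhds (hTX hz))

end remove

/-- a compact set meets finitely many members of a locally finite family -/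
theorem finite_of_LF {ι : Type*} {A : ι → Set V} {W K : Set V} (h : LF A W) (hK : IsCompact K)
    (hKW : K ⊆ W) : {i | (A i ∩ K).Nonempty}.Finite := by
  choose! U hU hfin using h
  obtain ⟨t, ht, hcov⟩ := hK.elim_nhds_subcover U fun x hx => hU x (hKW hx)
  refine (t.finite_toSet.biUnion fun x hx => hfin x (hKW (ht x hx))).subset ?_
  rintro i ⟨x, hxi, hxK⟩
  obtain ⟨z, hz, hxz⟩ := mem_iUnion₂.1 (hcov hxK)
  exact mem_biUnion hz ⟨x, hxi, hxz⟩

section handle

variable {Λ : Set V} (S : Handle Λ)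

theorem F_sub_H : S.F ⊆ S.H := by
  rw [← S.H_frontier]
  exact fun x hx => S.H_closed ⟨frontier_subset_closure hx.1, hx.2⟩

theorem F_not_int {x : V} (h : x ∈ S.F) : x ∉ interior S.H := by
  rw [← S.H_frontier] at h
  exact h.1.2

theorem cell_closed (d : S.D) : IsClosed (S.ι d '' S.Δ d) :=
  ((S.Δ_ball d).isCompact.image (S.ι d).continuous).isClosed

theorem circ_closed (d : S.D) : IsClosed (S.ι d '' S.ζ d) :=
  ((ConBall.conSphere (S.Δ_ball d)).some.symm.isCompact_right (isCompact_sphere _ _)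
    |>.image (S.ι d).continuous).isClosed

theorem cell_sub_Q (d : S.D) : S.ι d '' S.Δ d ⊆ S.ι d '' Q0 :=
  image_mono ((S.Δ_sub d).trans ball_subset_closedBall)

theorem circ_sub_cell (d : S.D) : S.ι d '' S.ζ d ⊆ S.ι d '' S.Δ d := image_mono (S.Δ_ball d).1

theorem circ_sub_F (d : S.D) : S.ι d '' S.ζ d ⊆ S.F := S.ζ_sub d

theorem cell_out {d : S.D} (hd : S.out d) {x : V} (hx : x ∈ S.ι d '' S.Δ d)
    (hx' : x ∉ S.ι d '' S.ζ d) : x ∉ S.H := by
  obtain ⟨y, hy, rfl⟩ := hx
  exact (S.out_in d hd).1 y hy fun h => hx' (mem_image_of_mem _ h)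

theorem cell_in {d : S.D} (hd : ¬ S.out d) {x : V} (hx : x ∈ S.ι d '' S.Δ d)
    (hx' : x ∉ S.ι d '' S.ζ d) : x ∈ interior S.H := by
  obtain ⟨y, hy, rfl⟩ := hx
  exact (S.in_in d hd).1 y hy fun h => hx' (mem_image_of_mem _ h)

theorem cell_in_sub {d : S.D} (hd : ¬ S.out d) : S.ι d '' S.Δ d ⊆ S.H := by
  intro x hx
  by_cases h : x ∈ S.ι d '' S.ζ d
  · exact F_sub_H S (circ_sub_F S d h)
  · exact interior_subset (cell_in S hd hx h)

theorem cell_disj {d d' : S.D} (h : S.out d ↔ S.out d') (hne : d ≠ d') :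
    Disjoint (S.ι d '' S.Δ d) (S.ι d' '' S.Δ d') :=
  (S.Q_disj d d' h hne).mono (cell_sub_Q S d) (cell_sub_Q S d')

theorem cell_inter (d d' : S.D) (hne : d ≠ d') :
    S.ι d '' S.Δ d ∩ S.ι d' '' S.Δ d' ⊆ S.ι d '' S.ζ d := by
  rintro x ⟨h1, h2⟩
  by_contra hx
  by_cases hd : S.out d <;> by_cases hd' : S.out d'
  · exact Set.disjoint_left.1 (cell_disj S (iff_of_true hd hd') hne) h1 h2
  · exact cell_out S hd h1 hx (cell_in_sub S hd' h2)
  · by_cases h3 : x ∈ S.ι d' '' S.ζ d'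
    · exact F_not_int S (circ_sub_F S d' h3) (cell_in S hd h1 hx)
    · exact cell_out S hd' h2 h3 (interior_subset (cell_in S hd h1 hx))
  · exact Set.disjoint_left.1 (cell_disj S (iff_of_false hd hd') hne) h1 h2

theorem X_sub : S.X ⊆ Λ := by
  rintro x (h | h)
  · exact S.H_sub (F_sub_H S h)
  · obtain ⟨d, hd⟩ := mem_iUnion.1 h
    exact S.Q_sub d (cell_sub_Q S d hd)

theorem cell_open (d : S.D) {x : V} (hx : x ∈ S.ι d '' S.Δ d) (hx' : x ∉ S.ι d '' S.ζ d) :
    ∃ W ∈ 𝓝 x, W ∩ S.X ⊆ S.ι d '' S.Δ d := by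
  classical
  have hxΛ : x ∈ Λ := S.Q_sub d (cell_sub_Q S d hx)
  obtain ⟨U, hU, hfin⟩ := S.Q_lf x hxΛ
  have h2 : ∀ᶠ y in 𝓝 x, ∀ i ∈ {i | (S.ι i '' Q0 ∩ U).Nonempty}, x ∉ S.ι i '' S.Δ i →
      y ∉ S.ι i '' S.Δ i := by
    rw [eventually_all_finite hfin]
    intro i _
    by_cases h : x ∈ S.ι i '' S.Δ i
    · exact Eventually.of_forall fun y h' => absurd h h'
    · filter_upwards [(cell_closed S i).isOpen_compl.mem_nhds h] with y hy _ using hy
  have h3 : ∀ᶠ y in 𝓝 x, ∀ i, x ∉ S.ι i '' S.Δ i → y ∉ S.ι i '' S.Δ i := by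
    filter_upwards [h2, hU] with y hy hyU i hi hyi
    exact hy i ⟨y, cell_sub_Q S i hyi, hyU⟩ hi hyi
  by_cases hd : S.out d
  · have hxH : x ∉ closure S.H := fun h => cell_out S hd hx hx' (S.H_closed ⟨h, hxΛ⟩)
    refine ⟨_, inter_mem h3 (isClosed_closure.isOpen_compl.mem_nhds hxH), ?_⟩
    rintro y ⟨⟨h4, h5⟩, h6⟩
    rcases h6 with h6 | h6
    · exact absurd (subset_closure (F_sub_H S h6)) h5
    · obtain ⟨d', hd'⟩ := mem_iUnion.1 h6
      by_cases he : d' = d
      · exact he ▸ hd'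
      · exfalso
        by_cases ho : S.out d'
        · exact h4 d' (fun h => Set.disjoint_left.1 (cell_disj S (iff_of_true ho hd) he) h hx) hd'
        · exact h5 (subset_closure (cell_in_sub S ho hd'))
  · have hxH := cell_in S hd hx hx'
    refine ⟨_, inter_mem h3 (isOpen_interior.mem_nhds hxH), ?_⟩
    rintro y ⟨⟨h4, h5⟩, h6⟩
    rcases h6 with h6 | h6
    · exact absurd h5 (F_not_int S h6)
    · obtain ⟨d', hd'⟩ := mem_iUnion.1 h6
      by_cases he : d' = d
      · exact he ▸ hd'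
      · exfalso
        by_cases ho : S.out d'
        · by_cases h7 : y ∈ S.ι d' '' S.ζ d'
          · exact F_not_int S (circ_sub_F S d' h7) h5
          · exact cell_out S ho hd' h7 (interior_subset h5)
        · exact h4 d' (fun h => Set.disjoint_left.1 (cell_disj S (iff_of_false ho hd) he) h hx) hd'

theorem fr_sub (j : S.J) : frontier (S.R j) ⊆ S.R j := (S.isBall j).1

theorem R_sub (j : S.J) : S.R j ⊆ Λ := by
  have := S.cover
  exact fun x hx => this ▸ mem_iUnion.2 ⟨j, hx⟩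

theorem R_closed (j : S.J) : IsClosed (S.R j) := (S.isBall j).isCompact.isClosed

theorem preconn_sphere {n : ℕ} {B : Set V} (h : ConSphere (n + 1) B) : IsPreconnected B := by
  obtain ⟨φ⟩ := h
  rw [← φ.symm.image_eq]
  refine IsPreconnected.image ?_ _ φ.symm.cont
  refine (isConnected_sphere (E := Fin (n + 1 + 1) → ℝ) ?_ 0 zero_le_one).isPreconnected
  rw [rank_fun', Fintype.card_fin]
  exact_mod_cast (by omega : 1 < n + 1 + 1)

theorem sphere_ne {n : ℕ} {B : Set V} (h : ConSphere n B) : B.Nonempty := by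
  obtain ⟨φ⟩ := h
  rw [← φ.symm.image_eq]
  exact (NormedSpace.sphere_nonempty.2 zero_le_one).image _

/-- the skeleton is connected -/
theorem preconn_X (hΛ : IsPreconnected Λ) : IsPreconnected S.X := by
  have h := preconn_remove (C := S.R) (S := fun j => frontier (S.R j)) hΛ S.lf (R_closed S)
    (R_sub S) (fr_sub S) (fun j => preconn_sphere (ConBall.conSphere (S.isBall j)))
    (fun j => sphere_ne (ConBall.conSphere (S.isBall j)))
    (by
      intro j x hx hx'
      have h1 : x ∈ interior (S.R j) := by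
        by_contra h
        exact hx' ⟨subset_closure hx, h⟩
      exact ⟨_, isOpen_interior.mem_nhds h1, inter_subset_left.trans interior_subset⟩)
    (fun i j hij => S.sep i j hij)
  have h2 : Λ \ ⋃ j, S.R j \ frontier (S.R j) = S.X := by
    have h3 : S.X = ⋃ j, frontier (S.R j) := S.X_eq.symm
    rw [h3]
    ext x
    constructor
    · rintro ⟨hx, hx'⟩
      have h4 : x ∈ ⋃ j, S.R j := by rw [S.cover]; exact hx
      obtain ⟨j, hj⟩ := mem_iUnion.1 h4
      refine mem_iUnion.2 ⟨j, ?_⟩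
      by_contra h5
      exact hx' (mem_iUnion.2 ⟨j, hj, h5⟩)
    · intro hx
      obtain ⟨j, hj⟩ := mem_iUnion.1 hx
      refine ⟨R_sub S j (fr_sub S j hj), ?_⟩
      rw [mem_iUnion]
      rintro ⟨i, hi, hi'⟩
      by_cases hij : i = j
      · exact hi' (hij ▸ hj)
      · exact hi' (S.sep i j hij ⟨hi, fr_sub S j hj⟩)
  rwa [h2] at h

/-- the surface `F` is preconnected -/
theorem preconn_F (hΛ : IsPreconnected Λ) : IsPreconnected S.F := by
  have h := preconn_remove (C := fun d => S.ι d '' S.Δ d) (S := fun d => S.ι d '' S.ζ d)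
    (preconn_X S hΛ) (fun z hz => (S.Q_lf.subset (cell_sub_Q S)) z (X_sub S hz)) (cell_closed S)
    (fun d => (subset_iUnion (fun d => S.ι d '' S.Δ d) d).trans subset_union_right)
    (circ_sub_cell S)
    (fun d => (PT.preconn_circle (ConBall.conSphere (S.Δ_ball d))).image _
      (S.ι d).continuous.continuousOn)
    (fun d => (PT.circle_nonempty (ConBall.conSphere (S.Δ_ball d))).image _)
    (fun d x hx hx' => cell_open S d hx hx') (cell_inter S)
  have h2 : S.X \ ⋃ d, S.ι d '' S.Δ d \ S.ι d '' S.ζ d = S.F := by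
    ext x
    constructor
    · rintro ⟨h1 | h1, h2⟩
      · exact h1
      · obtain ⟨d, hd⟩ := mem_iUnion.1 h1
        refine circ_sub_F S d ?_
        by_contra h3
        exact h2 (mem_iUnion.2 ⟨d, hd, h3⟩)
    · intro hx
      refine ⟨Or.inl hx, ?_⟩
      rw [mem_iUnion]
      rintro ⟨d, h1, h3⟩
      by_cases hd : S.out d
      · exact cell_out S hd h1 h3 (F_sub_H S hx)
      · exact F_not_int S hx (cell_in S hd h1 h3)
  rwa [h2] at h

theorem F_nonempty (hΛ : IsPreconnected Λ) : S.F.Nonempty := by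
  by_contra hF
  rw [not_nonempty_iff_eq_empty] at hF
  have h1 : Λ ⊆ interior S.H ∪ (closure S.H)ᶜ := by
    intro x hx
    by_contra h
    rw [mem_union, not_or, mem_compl_iff, not_not] at h
    have : x ∈ S.F := by rw [← S.H_frontier]; exact ⟨⟨h.2, h.1⟩, hx⟩
    rw [hF] at this; exact this
  obtain ⟨a, ha⟩ := S.H_int
  obtain ⟨b, hb, hb'⟩ := S.H_ne
  obtain ⟨x, -, h2, h3⟩ := hΛ _ _ isOpen_interior isClosed_closure.isOpen_compl h1
    ⟨a, S.H_sub (interior_subset ha), ha⟩ ⟨b, hb, fun h => hb' (S.H_closed ⟨h, hb⟩)⟩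
  exact h3 (subset_closure (interior_subset h2))

/-- **the surface `F` is connected** -/
theorem connected_F (hΛ : IsPreconnected Λ) : IsConnected S.F := ⟨F_nonempty S hΛ, preconn_F S hΛ⟩

/-- rays leave a compact set through its frontier -/
theorem exit {R : Set V} (hR : IsCompact R) {p e : V} (hp : p ∈ R) (hp' : p ∉ frontier R)
    (he : e ≠ 0) : ∃ s : ℝ, 0 < s ∧ p + s • e ∈ frontier R := by
  by_contra hcon
  push Not at hcon
  have hcl := hR.isClosed
  let T : Set V := (fun s : ℝ => p + s • e) '' Ici 0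
  have hT : IsPreconnected T :=
    isPreconnected_Ici.image _ (by fun_prop)
  have hsub : T ⊆ interior R ∪ Rᶜ := by
    rintro _ ⟨s, hs, rfl⟩
    by_contra h
    rw [mem_union, not_or, mem_compl_iff, not_not] at h
    have h1 : p + s • e ∈ frontier R := ⟨subset_closure h.2, h.1⟩
    rcases (show (0:ℝ) ≤ s from hs).eq_or_lt with h0 | h0
    · rw [← h0, zero_smul, add_zero] at h1; exact hp' h1
    · exact hcon s h0 h1
  obtain ⟨M, hM⟩ := hR.isBounded.subset_closedBall p
  have hen : 0 < ‖e‖ := norm_pos_iff.2 he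
  obtain ⟨x, -, h2, h3⟩ := hT _ _ isOpen_interior hcl.isOpen_compl hsub
    ⟨p, ⟨0, self_mem_Ici, by simp⟩, by
      by_contra h
      exact hp' ⟨subset_closure hp, h⟩⟩
    ⟨p + ((|M| + 1) / ‖e‖) • e, ⟨_, (show (0:ℝ) ≤ _ by positivity), rfl⟩, fun h => by
      have h4 := hM h
      rw [mem_closedBall, dist_eq_norm, add_sub_cancel_left, norm_smul, Real.norm_eq_abs,
        abs_of_pos (by positivity), div_mul_cancel₀ _ hen.ne'] at h4
      linarith [le_abs_self M]⟩
  exact h3 (interior_subset h2)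

/-- every frontier meets `F` -/
theorem fr_meets (j : S.J) : (S.R j ∩ S.F).Nonempty := by
  by_contra hcon
  rw [not_nonempty_iff_eq_empty, eq_empty_iff_forall_notMem] at hcon
  have hfX : frontier (S.R j) ⊆ S.X := by
    have h3 : S.X = ⋃ j, frontier (S.R j) := S.X_eq.symm
    rw [h3]
    exact subset_iUnion (fun j => frontier (S.R j)) j
  have hsph := ConBall.conSphere (S.isBall j)
  obtain ⟨d, hd⟩ := subset_of_cover (preconn_sphere hsph) hfX
    (U := fun d => S.ι d '' S.Δ d \ S.ι d '' S.ζ d)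
    (by
      rintro d x ⟨h1, h2⟩
      obtain ⟨W, hW, h⟩ := cell_open S d h1 h2
      refine ⟨_, inter_mem hW ((circ_closed S d).isOpen_compl.mem_nhds h2), ?_⟩
      rintro y ⟨⟨h3, h4⟩, h5⟩
      exact ⟨h ⟨h3, h5⟩, h4⟩)
    (by
      intro d d' hne
      rw [Set.disjoint_left]
      rintro x ⟨h1, h2⟩ ⟨h3, h4⟩
      exact h2 (cell_inter S d d' hne ⟨h1, h3⟩))
    (by
      intro x hx
      rcases hfX hx with h | h
      · exact absurd ⟨fr_sub S j hx, h⟩ (hcon x)
      · obtain ⟨d, hd⟩ := mem_iUnion.1 h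
        exact mem_iUnion.2 ⟨d, hd, fun h' => hcon x ⟨fr_sub S j hx, circ_sub_F S d h'⟩⟩)
    (sphere_ne hsph)
  obtain ⟨p, hp, hp', -⟩ := S.p_ex j
  have hn : S.n d ≠ 0 := by
    intro h
    have := (S.n_ind d 0 0 1 (by rw [h, smul_zero, add_zero])).1
    exact one_ne_zero this
  obtain ⟨s, hs, h1⟩ := exit (S.isBall j).isCompact hp hp' hn
  obtain ⟨s', hs', h2⟩ := exit (S.isBall j).isCompact hp hp' (neg_ne_zero.2 hn)
  obtain ⟨⟨u, -, hu⟩, -⟩ := hd h1
  obtain ⟨⟨u', -, hu'⟩, -⟩ := hd h2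
  have h3 := (S.n_ind d u' u (s + s') (by
    rw [hu, hu', smul_neg, add_smul]
    abel)).1
  linarith

/-- **the surface `F` is not compact** -/
theorem not_compact_F (hΛ : IsOpen Λ) (hne : Λ.Nonempty) : ¬ IsCompact S.F := by
  intro hF
  have hFΛ : S.F ⊆ Λ := (F_sub_H S).trans S.H_sub
  have hfin := finite_of_LF S.lf hF hFΛ
  have hall : (univ : Set S.J).Finite := hfin.subset fun j _ => fr_meets S j
  have hc : IsCompact Λ := by
    have h1 : IsCompact (⋃ j ∈ (univ : Set S.J), S.R j) :=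
      hall.isCompact_biUnion fun j _ => (S.isBall j).isCompact
    rw [biUnion_univ, S.cover] at h1
    exact h1
  have huniv : Λ = univ := by
    rcases isClopen_iff.1 ⟨hc.isClosed, hΛ⟩ with h | h
    · exact absurd h hne.ne_empty
    · exact h
  rw [huniv] at hc
  exact noncompact_univ V hc

/-- **the components of `F` are not compact** -/
theorem ncpt_F (hΛ : IsOpen Λ) (hc : IsPreconnected Λ) {z : V} (hz : z ∈ S.F) :
    ¬ IsCompact (connectedComponentIn S.F z) := by
  rw [(preconn_F S hc).connectedComponentIn hz]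
  exact not_compact_F S hΛ ⟨z, (F_sub_H S).trans S.H_sub hz⟩

end handle

end P073.PA249
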